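import Vale.Agent.P184.R3.UDefs

/-!
# Blocks F, G, H: fields, traces of idempotents, exact groups
-/

namespace Vale.Agent.P184.H57

open Vale.Agent.P184.Un

universe u

/-- Fields: an invariant state on functions of random labels and colours, and slow probability
measures. -/
structure FData (G : Type u) [Group G] (x : G) (S : Finset G) (ε : ℝ) where
  Ω : Type u
  tΩ : TopologicalSpace Ω
  cΩ : CompactSpace Ω
  nΩ : Nonempty Ω
  act : G → C(Ω, Ω)
  act_inv : ∀ c, c * x = x * c → ∀ ω, act c (act c⁻¹ ω) = ω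
  φ : C(Ω, ℂ) →L[ℂ] ℂ
  φ_one : φ 1 = 1
  φ_inv : ∀ c, c * x = x * c → ∀ f : C(Ω, ℂ), φ (f.comp (act c)) = φ f
  m : ℕ
  hm : NeZero m
  C : Type
  fC : Fintype C
  E : Type
  fE : Fintype E
  q : G → G → E → ℝ
  q_nonneg : ∀ r p u, 0 ≤ q r p u
  q_sum : ∀ r p, ∑ u, q r p u = 1
  q_H : ∀ c, c * x = x * c → ∀ r p u, q (c * r) (c * p) u = q r p u
  q_x : ∀ r p u, q (x * r) p u = q r p u
  q_x' : ∀ r p u, q r (x * p) u = q r p u
  col : G → E → LocallyConstant Ω (ZMod m × C)
  col_act : ∀ c, c * x = x * c → ∀ p u ω, col (c * p) u (act c ω) = col p u ω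
  col_x : ∀ p u ω, col (x * p) u ω = ((col p u ω).1 + 1, (col p u ω).2)
  fib : ∀ p ω c, 2 * Nat.card {j : ZMod m // ∃ u, col p u ω = (j, c)} ≤ m
  slow : ∀ s ∈ S, ∀ r p ω, open Classical in
    ∑ j : ZMod m, ∑ c : C, |(∑ u, if col (p * s) u ω = (j, c) then q r (p * s) u else 0) -
      ∑ u, if col p u ω = (j, c) then q r p u else 0| ≤ ε

/-- Block F1: pull back along homomorphisms. -/
theorem FData.pull {G L : Type u} [Group G] [Group L] (f : G →* L) {x : G} (S : Finset G)
    {ε : ℝ} [DecidableEq L] (D : FData L (f x) (S.image f) ε) : Nonempty (FData G x S ε) := by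
  sorry

/-- Block F2: fields on exact groups. -/
theorem exists_FData {G : Type u} [Group G] (hA : PropertyA G) (S : Finset G) {ε : ℝ}
    (hε : 0 < ε) : ∃ F : Finset G, ∀ x : G, (¬ IsOfFinOrder x ∨ ∀ g ∈ F, ¬ IsConj x g) →
      Nonempty (FData G x S ε) := by
  sorry

/-- Block G: traces of idempotents. -/
theorem tau_eq_zero_of_FData {G : Type u} [Group G] {q : ℕ} (e : Mat G q) (he : IsIdem e) :
    ∃ (S : Finset G) (ε : ℝ), 0 < ε ∧ ∀ x : G, Nonempty (FData G x S ε) →
      tau (ConjClasses.mk x) e = 0 := by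
  sorry

/-- Block H1: vanishing. -/
theorem vanishesAt_of_propertyA {G L : Type u} [Group G] [Group L] (hA : PropertyA L)
    (f : G →* L) (x : G) (hx : ¬ IsOfFinOrder (f x)) : VanishesAt x := by
  sorry

/-- Block H2: the `ℓ¹`-Bass conjecture for exact groups. -/
theorem l1Bass_of_propertyA {G : Type u} [Group G] (hA : PropertyA G) : L1Bass G := by
  sorry

end Vale.Agent.P184.H57
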