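import Mathlib

/-!
# Blocks G1, G2: Clifford matrices for the colours, approximation of the square root
-/

open scoped Matrix Matrix.Norms.L2Operator

namespace Vale.Agent.P184.H57

/-- The quadratic form. -/
noncomputable def qf {m : ℕ} [NeZero m] {C : Type} [Fintype C] (f : ZMod m × C → ℝ) : ℝ :=
  ∑ k, f k ^ 2 - (1 / m) * ∑ c, (∑ j, f (j, c)) ^ 2

/-- Clifford data for the colours. -/
structure Cliff (m : ℕ) [NeZero m] (C : Type) [Fintype C] where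
  κ : Type
  fκ : Fintype κ
  dκ : DecidableEq κ
  ch : ZMod m × C → Matrix κ κ ℂ
  Γ : Matrix κ κ ℂ
  Λ : Matrix κ κ ℂ
  ch_star : ∀ k, (ch k)ᴴ = ch k
  ch_sq : ∀ f : ZMod m × C → ℝ,
    (∑ k, (f k : ℂ) • ch k) * (∑ k, (f k : ℂ) • ch k) = ((qf f : ℝ) : ℂ) • (1 : Matrix κ κ ℂ)
  Γ_sq : Γ * Γ = 1
  Γ_star : Γᴴ = Γ
  Γ_ch : ∀ k, Γ * ch k = -(ch k * Γ)
  Λ_star : Λᴴ * Λ = 1
  Λ_star' : Λ * Λᴴ = 1
  Λ_Γ : Λ * Γ = Γ * Λ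
  Λ_ch : ∀ j c, Λ * ch (j + 1, c) = ch (j, c) * Λ
  tr_ne : (Γ * Λᴴ).trace ≠ 0

/-- Block G1a. -/
theorem exists_cliff (m : ℕ) [NeZero m] (C : Type) [Fintype C] : Nonempty (Cliff m C) := by
  sorry

theorem qf_nonneg {m : ℕ} [NeZero m] {C : Type} [Fintype C] (f : ZMod m × C → ℝ) : 0 ≤ qf f := by
  sorry

theorem qf_le {m : ℕ} [NeZero m] {C : Type} [Fintype C] (f : ZMod m × C → ℝ) :
    qf f ≤ ∑ k, f k ^ 2 := by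
  sorry

/-- Block G1b. -/
theorem qf_ge {m : ℕ} [NeZero m] {C : Type} [Fintype C] (f : ZMod m × C → ℝ)
    (h : ∀ c, 2 * Nat.card {j : ZMod m // f (j, c) ≠ 0} ≤ m) :
    (∑ k, f k ^ 2) / 2 ≤ qf f := by
  sorry

/-- The norm of the Clifford matrices. -/
theorem cliff_norm {m : ℕ} [NeZero m] {C : Type} [Fintype C] (K : Cliff m C)
    (f : ZMod m × C → ℝ) :
    letI := K.fκ; letI := K.dκ
    ‖∑ k, (f k : ℂ) • K.ch k‖ = Real.sqrt (qf f) := by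
  sorry

/-- Block G2a. -/
theorem exists_poly (η : ℝ) (hη : 0 < η) : ∃ P : Polynomial ℝ, P.eval 0 = 0 ∧
    ∀ t ∈ Set.Icc (0 : ℝ) 2, |P.eval t - Real.sqrt t| ≤ η := by
  sorry

/-- Block G2b: dimension-free slowness. -/
theorem poly_slow {K : Type*} [Fintype K] (P : Polynomial ℝ) (η : ℝ) (hη : 0 ≤ η)
    (hP0 : P.eval 0 = 0) (hP : ∀ t ∈ Set.Icc (0 : ℝ) 2, |P.eval t - Real.sqrt t| ≤ η)
    (f f' : K → ℝ) (hf : ∀ k, 0 ≤ f k) (hf' : ∀ k, 0 ≤ f' k) (hf2 : ∑ k, f k ≤ 2)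
    (hf2' : ∑ k, f' k ≤ 2) (n : ℕ) (hn : Nat.card {k // f k ≠ 0} ≤ n)
    (hn' : Nat.card {k // f' k ≠ 0} ≤ n) :
    Real.sqrt (∑ k, (P.eval (f k) - P.eval (f' k)) ^ 2) ≤
      Real.sqrt (∑ k, |f k - f' k|) + 2 * η * Real.sqrt (2 * n) := by
  sorry

/-- Block G2c: the norm. -/
theorem poly_norm {K : Type*} [Fintype K] (P : Polynomial ℝ) (η : ℝ) (hη : 0 ≤ η)
    (hP0 : P.eval 0 = 0) (hP : ∀ t ∈ Set.Icc (0 : ℝ) 2, |P.eval t - Real.sqrt t| ≤ η)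
    (f : K → ℝ) (hf : ∀ k, 0 ≤ f k) (hf2 : ∑ k, f k ≤ 2) (n : ℕ)
    (hn : Nat.card {k // f k ≠ 0} ≤ n) :
    |Real.sqrt (∑ k, P.eval (f k) ^ 2) - Real.sqrt (∑ k, f k)| ≤ η * Real.sqrt n := by
  sorry

end Vale.Agent.P184.H57
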