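import Vale.Agent.P184.H460.B2

/-!
# Block B: Pfaffians of lists of forms and marks
-/

namespace Vale.Agent.P184.H57

variable {ι : Type*}

/-- Antisymmetry. -/
theorem Pf_swap (A B : List ((ι → ℝ) ⊕ ι)) (v w : (ι → ℝ) ⊕ ι) :
    Pf (A ++ v :: w :: B) = -Pf (A ++ w :: v :: B) :=
  H460.Pf_swap A B v w

/-- Moving an entry. -/
theorem Pf_move (A B D : List ((ι → ℝ) ⊕ ι)) (v : (ι → ℝ) ⊕ ι) :
    Pf (A ++ v :: (B ++ D)) = (-1) ^ B.length * Pf (A ++ B ++ v :: D) :=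
  H460.Pf_move A B D v

/-- Equal entries. -/
theorem Pf_dup (A B D : List ((ι → ℝ) ⊕ ι)) (v : (ι → ℝ) ⊕ ι) :
    Pf (A ++ v :: B ++ v :: D) = 0 :=
  H460.Pf_dup A B D v

/-- Odd length. -/
theorem Pf_odd (L : List ((ι → ℝ) ⊕ ι)) (h : Odd L.length) : Pf L = 0 :=
  H460.Pf_odd L h

/-- The numbers of forms and marks agree. -/
theorem Pf_count (L : List ((ι → ℝ) ⊕ ι)) (h : L.countP (·.isLeft) ≠ L.countP (·.isRight)) :
    Pf L = 0 :=
  H460.Pf_count L h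

/-- Linearity in the forms. -/
theorem Pf_sum {κ : Type*} (s : Finset κ) (c : κ → ℝ) (f : κ → ι → ℝ)
    (A B : List ((ι → ℝ) ⊕ ι)) :
    Pf (A ++ .inl (fun i => ∑ k ∈ s, c k * f k i) :: B) =
      ∑ k ∈ s, c k * Pf (A ++ .inl (f k) :: B) :=
  H460.Pf_sum s c f A B

/-- Expansion along the indicator of `i`, if `i` is a mark occurring exactly once. -/
theorem Pf_single [DecidableEq ι] (A B : List ((ι → ℝ) ⊕ ι)) (i : ι)
    (hA : .inr i ∉ A) (hB : .inr i ∉ B) :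
    Pf (.inl (Pi.single i 1) :: (A ++ .inr i :: B)) = (-1) ^ A.length * Pf (A ++ B) :=
  H460.Pf_single A B i hA hB

/-- The Pfaffian depends only on the pairings: reindexing of the marks, restriction of the
forms. -/
theorem Pf_map {ι' : Type*} (φ : (ι → ℝ) ⊕ ι → (ι' → ℝ) ⊕ ι') (L : List ((ι → ℝ) ⊕ ι))
    (h : ∀ v ∈ L, ∀ w ∈ L, pr (φ v) (φ w) = pr v w) : Pf (L.map φ) = Pf L :=
  H460.Pf_map φ L h

/-- Weak form of the Hadamard inequality: `n` forms with values bounded by `1`. -/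
theorem Pf_bound (L : List ((ι → ℝ) ⊕ ι)) (n : ℕ) (hn : L.length = 2 * n)
    (h : ∀ f : ι → ℝ, .inl f ∈ L → ∀ i : ι, .inr i ∈ L → |f i| ≤ 1) :
    |Pf L| ≤ (n : ℝ) ^ ((n : ℝ) / 2) :=
  H460.Pf_bound L n hn h

end Vale.Agent.P184.H57
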