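import Mathlib

/-!
# Block D: kernels
-/

open scoped ENNReal

namespace Vale.Agent.P184.H57

/-- Bounded functions. -/
abbrev Li (G R : Type*) [NormedRing R] := lp (fun _ : G => R) ∞

/-- Kernels on `G` with coefficients in `R`: `k.co g p` is the entry at `(p, p g)`; the norm is
`∑ g, sup p ‖k.co g p‖`. -/
noncomputable def Ker (G R : Type*) [NormedRing R] : Type _ := lp (fun _ : G => Li G R) 1

set_option linter.unusedSectionVars false

variable {G R : Type*} [Group G] [NormedRing R] [NormOneClass R]

noncomputable instance : NormedAddCommGroup (Ker G R) :=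
  inferInstanceAs (NormedAddCommGroup (lp (fun _ : G => Li G R) 1))

noncomputable instance [NormedAlgebra ℂ R] : NormedSpace ℂ (Ker G R) :=
  inferInstanceAs (NormedSpace ℂ (lp (fun _ : G => Li G R) 1))

instance [CompleteSpace R] : CompleteSpace (Ker G R) :=
  inferInstanceAs (CompleteSpace (lp (fun _ : G => Li G R) 1))

/-- The coefficients. -/
def Ker.co (k : Ker G R) (g : G) : Li G R := k.1 g

/-- The entry of `k` at `(p, p')`. -/
def Ker.e (k : Ker G R) (p p' : G) : R := (k.co (p⁻¹ * p')).1 p

/-- Right translation of bounded functions. -/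
noncomputable def sh (h : G) (F : Li G R) : Li G R :=
  ⟨fun p => F.1 (p * h), by
    sorry⟩

theorem Ker.summable (k : Ker G R) : Summable fun g => ‖k.co g‖ := by
  sorry

theorem Ker.norm_def (k : Ker G R) : ‖k‖ = ∑' g, ‖k.co g‖ := by
  sorry

/-- Kernels from summable coefficients. -/
noncomputable def Ker.mk (f : G → Li G R) (hf : Summable fun g => ‖f g‖) : Ker G R :=
  ⟨f, by
    sorry⟩

theorem Ker.co_mk (f : G → Li G R) (hf : Summable fun g => ‖f g‖) (g : G) :
    (Ker.mk f hf).co g = f g := rfl

theorem Ker.mul_summable [CompleteSpace R] (k k' : Ker G R) :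
    Summable fun g => ‖∑' h, k.co h * sh h (k'.co (h⁻¹ * g))‖ := by
  sorry

noncomputable instance [CompleteSpace R] : Mul (Ker G R) :=
  ⟨fun k k' => Ker.mk (fun g => ∑' h, k.co h * sh h (k'.co (h⁻¹ * g))) (Ker.mul_summable k k')⟩

open Classical in
/-- The diagonal kernel of a bounded function. -/
noncomputable def diag (F : Li G R) : Ker G R :=
  Ker.mk (fun g => if g = 1 then F else 0) (by sorry)

noncomputable instance : One (Ker G R) := ⟨diag 1⟩

/-- (To be proved; `NormedRing` data compatible with the above addition, product, unit, norm.) -/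
noncomputable instance [CompleteSpace R] : NormedRing (Ker G R) :=
  { (inferInstance : NormedAddCommGroup (Ker G R)) with
    mul := (· * ·)
    one := 1
    mul_assoc := by sorry
    one_mul := by sorry
    mul_one := by sorry
    left_distrib := by sorry
    right_distrib := by sorry
    zero_mul := by sorry
    mul_zero := by sorry
    norm_mul_le := by sorry }

noncomputable instance [CompleteSpace R] [NormedAlgebra ℂ R] : NormedAlgebra ℂ (Ker G R) :=
  { (inferInstance : NormedSpace ℂ (Ker G R)) with
    toAlgebra := Algebra.ofModule (by sorry) (by sorry)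
    norm_smul_le := by sorry }

namespace Ker

@[ext] theorem ext {k k' : Ker G R} (h : ∀ p p', k.e p p' = k'.e p p') : k = k' := by
  sorry

theorem e_add (k k' : Ker G R) (p p' : G) : (k + k').e p p' = k.e p p' + k'.e p p' := by
  sorry

theorem e_sub (k k' : Ker G R) (p p' : G) : (k - k').e p p' = k.e p p' - k'.e p p' := by
  sorry

theorem e_neg (k : Ker G R) (p p' : G) : (-k).e p p' = -k.e p p' := by
  sorry

theorem e_smul [NormedAlgebra ℂ R] (c : ℂ) (k : Ker G R) (p p' : G) :
    (c • k).e p p' = c • k.e p p' := by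
  sorry

theorem norm_e_le (k : Ker G R) (p p' : G) : ‖k.e p p'‖ ≤ ‖k.co (p⁻¹ * p')‖ := by
  sorry

theorem norm_co_le (k : Ker G R) (g : G) : ‖k.co g‖ ≤ ‖k‖ := by
  sorry

/-- The entries as continuous linear maps. -/
noncomputable def eL [NormedAlgebra ℂ R] (p p' : G) : Ker G R →L[ℂ] R :=
  LinearMap.mkContinuous
    { toFun := fun k => k.e p p'
      map_add' := fun k k' => e_add k k' p p'
      map_smul' := fun c k => e_smul c k p p' } 1 (by sorry)

theorem eL_apply [NormedAlgebra ℂ R] (p p' : G) (k : Ker G R) : eL p p' k = k.e p p' := rfl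

variable [CompleteSpace R]

theorem e_mul_summable (k k' : Ker G R) (p p' : G) :
    Summable fun h => ‖k.e p h * k'.e h p'‖ := by
  sorry

theorem e_mul (k k' : Ker G R) (p p' : G) :
    (k * k').e p p' = ∑' h, k.e p h * k'.e h p' := by
  sorry

open Classical in
theorem e_one (p p' : G) : (1 : Ker G R).e p p' = if p = p' then 1 else 0 := by
  sorry

open Classical in
theorem e_diag (F : Li G R) (p p' : G) : (diag F).e p p' = if p = p' then F.1 p else 0 := by
  sorry

theorem diag_mul_e (F : Li G R) (k : Ker G R) (p p' : G) :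
    (diag F * k).e p p' = F.1 p * k.e p p' := by
  sorry

theorem mul_diag_e (F : Li G R) (k : Ker G R) (p p' : G) :
    (k * diag F).e p p' = k.e p p' * F.1 p' := by
  sorry

theorem norm_diag (F : Li G R) : ‖diag F‖ = ‖F‖ := by
  sorry

open Classical in
/-- The projection onto the position `c`. -/
noncomputable def dl (c : G) : Ker G R := diag ⟨fun p => if p = c then 1 else 0, by sorry⟩

open Classical in
theorem dl_mul_e (c : G) (k : Ker G R) (p p' : G) :
    (dl c * k).e p p' = if p = c then k.e p p' else 0 := by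
  sorry

open Classical in
theorem mul_dl_e (c : G) (k : Ker G R) (p p' : G) :
    (k * dl c).e p p' = if p' = c then k.e p p' else 0 := by
  sorry

/-- Splitting a product at a position. -/
theorem mul_dl_mul_e (a b : Ker G R) (c p p' : G) :
    (a * dl c * b).e p p' = a.e p c * b.e c p' := by
  sorry

/-- Majorants. -/
def Maj (k : Ker G R) (b : G → ℝ) : Prop := ∀ g, ‖k.co g‖ ≤ b g

/-- Convolution of nonnegative summable functions. -/
noncomputable def cv (b b' : G → ℝ) (g : G) : ℝ := ∑' h, b h * b' (h⁻¹ * g)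

theorem cv_summable {b b' : G → ℝ} (h0 : ∀ g, 0 ≤ b g) (h0' : ∀ g, 0 ≤ b' g) (hb : Summable b)
    (hb' : Summable b') : Summable (cv b b') ∧ (∀ g, 0 ≤ cv b b' g) ∧
      (∀ g, Summable fun h => b h * b' (h⁻¹ * g)) ∧ ∑' g, cv b b' g = (∑' g, b g) * ∑' g, b' g := by
  sorry

theorem Maj.mul {k k' : Ker G R} {b b' : G → ℝ} (hk : Maj k b) (hk' : Maj k' b')
    (hb : Summable b) (hb' : Summable b') : Maj (k * k') (cv b b') := by
  sorry

theorem Maj.add {k k' : Ker G R} {b b' : G → ℝ} (hk : Maj k b) (hk' : Maj k' b') :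
    Maj (k + k') fun g => b g + b' g := by
  sorry

theorem maj_diag {F : Li G R} {C : ℝ} (hF : ‖F‖ ≤ C) :
    Maj (diag F : Ker G R) fun g => open Classical in if g = 1 then C else 0 := by
  sorry

theorem Maj.norm {k : Ker G R} {b : G → ℝ} (hk : Maj k b) (hb : Summable b) :
    ‖k‖ ≤ ∑' g, b g := by
  sorry

/-- Uniform majorant of inverses (Neumann series): all kernels `a` with a fixed majorant `b` with
`∑ b < 1` have an inverse of `1 - a` with a fixed majorant. -/
theorem exists_inv_maj (b : G → ℝ) (h0 : ∀ g, 0 ≤ b g) (hb : Summable b) (h1 : ∑' g, b g < 1) :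
    ∃ b' : G → ℝ, (∀ g, 0 ≤ b' g) ∧ Summable b' ∧ ∀ a : Ker G R, Maj a b →
      ∃ v : Ker G R, Maj v b' ∧ (1 - a) * v = 1 ∧ v * (1 - a) = 1 := by
  sorry

/-- Constant kernels. -/
noncomputable def cst (a : G → R) (ha : Summable fun g => ‖a g‖) : Ker G R :=
  Ker.mk (fun g => ⟨fun _ => a g, by sorry⟩) (by sorry)

theorem cst_e (a : G → R) (ha : Summable fun g => ‖a g‖) (p p' : G) :
    (cst a ha).e p p' = a (p⁻¹ * p') := by
  sorry

end Ker

end Vale.Agent.P184.H57
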