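import Vale.Agent.P184.H57.E
import Vale.Agent.P184.H57.F
import Vale.Agent.P184.H57.G1

/-!
# Block G: the data of the trace lemma from fields
-/

open scoped Matrix Matrix.Norms.L2Operator Kronecker ENNReal

namespace Vale.Agent.P184.H57

open Vale.Agent.P184.Un Ker

set_option linter.unusedSectionVars false

universe u

attribute [instance] FData.tΩ FData.cΩ FData.nΩ FData.hm FData.fC FData.fE Cliff.fκ Cliff.dκ

section

variable {G : Type u} [Group G] {x : G} {S : Finset G} {ε : ℝ} (D : FData G x S ε)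
  (K : Cliff D.m D.C) (q : ℕ) [NeZero q]

/-- Coefficient matrices. -/
abbrev MM {m : ℕ} [NeZero m] {C : Type} [Fintype C] (K : Cliff m C) (q : ℕ) :=
  Matrix (Fin q × K.κ) (Fin q × K.κ) ℂ

/-- The coefficient algebra. -/
abbrev RR := C(D.Ω, MM K q)

instance : NormOneClass (RR D K q) := by
  sorry

instance : CompleteSpace (RR D K q) := by
  sorry

/-- The matrices of the colours. -/
noncomputable def cH {m : ℕ} [NeZero m] {C : Type} [Fintype C] (K : Cliff m C) (q : ℕ)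
    (k : ZMod m × C) : MM K q := (1 : Matrix (Fin q) (Fin q) ℂ) ⊗ₖ K.ch k

open Classical in
/-- The masses of the colours. -/
noncomputable def Mk (s : G →₀ ℝ) (p : G) (ω : D.Ω) (k : ZMod D.m × D.C) : ℝ :=
  ∑ u, if D.col p u ω = k then s.sum (fun r t => t * D.q r p u) else 0

/-- The symmetry. -/
noncomputable def fW (P : Polynomial ℝ) (s : G →₀ ℝ) : Li G (RR D K q) :=
  ⟨fun p => ⟨fun ω => ∑ k, ((P.eval (Mk D s p ω k) : ℝ) : ℂ) • cH K q k, by sorry⟩, by sorry⟩

/-- Its partial derivatives. -/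
noncomputable def fB (P : Polynomial ℝ) (u : D.E) (s : G →₀ ℝ) : Li G (RR D K q) :=
  ⟨fun p => ⟨fun ω => ((P.derivative.eval (Mk D s p ω (D.col p u ω)) : ℝ) : ℂ) •
    cH K q (D.col p u ω), by sorry⟩, by sorry⟩

open Classical in
/-- Its second partial derivatives. -/
noncomputable def fB' (P : Polynomial ℝ) (u v : D.E) (s : G →₀ ℝ) : Li G (RR D K q) :=
  ⟨fun p => ⟨fun ω => if D.col p u ω = D.col p v ω then
    ((P.derivative.derivative.eval (Mk D s p ω (D.col p u ω)) : ℝ) : ℂ) •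
    cH K q (D.col p u ω) else 0, by sorry⟩, by sorry⟩

/-- Directional derivatives. -/
noncomputable def fW1 (P : Polynomial ℝ) (r : G) (s : G →₀ ℝ) : Li G (RR D K q) :=
  ⟨fun p => ∑ u, (D.q r p u : ℂ) • (fB D K q P u s).1 p, by sorry⟩

noncomputable def fB1 (P : Polynomial ℝ) (u : D.E) (r : G) (s : G →₀ ℝ) : Li G (RR D K q) :=
  ⟨fun p => ∑ v, (D.q r p v : ℂ) • (fB' D K q P u v s).1 p, by sorry⟩

/-! ### G3: the fields `W`, `B`, `B'` -/

theorem fB'_symm (P : Polynomial ℝ) (u v : D.E) (s : G →₀ ℝ) :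
    fB' D K q P u v s = fB' D K q P v u s := by
  sorry

theorem fW_deriv (P : Polynomial ℝ) (s : G →₀ ℝ) (r : G) :
    HasDerivAt (fun τ : ℝ => fW D K q P (s + Finsupp.single r τ)) (fW1 D K q P r s) 0 := by
  sorry

theorem fB_deriv (P : Polynomial ℝ) (u : D.E) (s : G →₀ ℝ) (r : G) :
    HasDerivAt (fun τ : ℝ => fB D K q P u (s + Finsupp.single r τ)) (fB1 D K q P u r s) 0 := by
  sorry

theorem fW_cont (P : Polynomial ℝ) (N : ℕ) (c : Fin N → G) :
    Continuous fun t : Fin N → ℝ => fW D K q P (sN c t) := by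
  sorry

theorem fB_cont (P : Polynomial ℝ) (N : ℕ) (c : Fin N → G) (u : D.E) :
    Continuous fun t : Fin N → ℝ => fB D K q P u (sN c t) := by
  sorry

theorem fB'_cont (P : Polynomial ℝ) (N : ℕ) (c : Fin N → G) (u v : D.E) :
    Continuous fun t : Fin N → ℝ => fB' D K q P u v (sN c t) := by
  sorry

theorem fB_bd (P : Polynomial ℝ) : ∃ CB : ℝ, 0 ≤ CB ∧ ∀ s : G →₀ ℝ, (∀ r, 0 ≤ s r) → mass s ≤ 2 →
    (‖fW D K q P s‖ ≤ CB ∧ ∀ u, ‖fB D K q P u s‖ ≤ CB ∧ ∀ v, ‖fB' D K q P u v s‖ ≤ CB) := by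
  sorry

theorem fW_shift (P : Polynomial ℝ) (s : G →₀ ℝ) (r : G) (τ : ℝ) :
    fW D K q P (s + Finsupp.single (x * r) τ) = fW D K q P (s + Finsupp.single r τ) := by
  sorry

theorem fB_shift (P : Polynomial ℝ) (u : D.E) (s : G →₀ ℝ) (r : G) (τ : ℝ) :
    fB D K q P u (s + Finsupp.single (x * r) τ) = fB D K q P u (s + Finsupp.single r τ) := by
  sorry

/-- The action of the centralizer. -/
noncomputable def fσ (c : G) : RR D K q →+* RR D K q where
  toFun b := b.comp (D.act c⁻¹)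
  map_one' := rfl
  map_mul' _ _ := rfl
  map_zero' := rfl
  map_add' _ _ := rfl

/-- The twist. -/
noncomputable def fθ : RR D K q →+* RR D K q where
  toFun b := ⟨fun ω => ((1 : Matrix (Fin q) (Fin q) ℂ) ⊗ₖ K.Λᴴ) * b ω *
    ((1 : Matrix (Fin q) (Fin q) ℂ) ⊗ₖ K.Λ), by sorry⟩
  map_one' := by sorry
  map_mul' := by sorry
  map_zero' := by sorry
  map_add' := by sorry

/-- The twisted trace. -/
noncomputable def fT : RR D K q →L[ℂ] ℂ :=
  LinearMap.mkContinuous
    { toFun := fun b => D.φ ⟨fun ω => (b ω * ((1 : Matrix (Fin q) (Fin q) ℂ) ⊗ₖ K.Λᴴ)).trace,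
        by sorry⟩
      map_add' := by sorry
      map_smul' := by sorry } (‖D.φ‖ * ((q * Fintype.card K.κ : ℕ) : ℝ)) (by sorry)

theorem fσ_cont (c : G) : Continuous (fσ D K q c) := by
  sorry

theorem fθ_cont : Continuous (fθ D K q) := by
  sorry

theorem fT_comm (a b : RR D K q) : fT D K q (a * b) = fT D K q (b * fθ D K q a) := by
  sorry

theorem fT_σ (c : G) (hc : c * x = x * c) (a : RR D K q) : fT D K q (fσ D K q c a) = fT D K q a := by
  sorry

theorem fW_H (P : Polynomial ℝ) (c : G) (hc : c * x = x * c) (s : G →₀ ℝ) (p : G) :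
    (fW D K q P (s.mapDomain (c * ·))).1 (c * p) = fσ D K q c ((fW D K q P s).1 p) := by
  sorry

theorem fB_H (P : Polynomial ℝ) (c : G) (hc : c * x = x * c) (u : D.E) (s : G →₀ ℝ) (p : G) :
    (fB D K q P u (s.mapDomain (c * ·))).1 (c * p) = fσ D K q c ((fB D K q P u s).1 p) := by
  sorry

theorem fW_x (P : Polynomial ℝ) (s : G →₀ ℝ) (p : G) :
    (fW D K q P s).1 (x * p) = fθ D K q ((fW D K q P s).1 p) := by
  sorry

theorem fB_x (P : Polynomial ℝ) (u : D.E) (s : G →₀ ℝ) (p : G) :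
    (fB D K q P u s).1 (x * p) = fθ D K q ((fB D K q P u s).1 p) := by
  sorry

/-! ### G6: the idempotents -/

/-- The coefficient matrices of `e`. -/
def cE {q : ℕ} (e : Mat G q) (g : G) : Matrix (Fin q) (Fin q) ℂ := Matrix.of fun i j => e i j g

/-- The kernel of `e ⊗ X`. -/
noncomputable def fE (e : Mat G q) (he : InL1 e) (X : Matrix K.κ K.κ ℂ) : Ker G (RR D K q) :=
  cst (fun g => ContinuousMap.const D.Ω (cE e g ⊗ₖ X)) (by sorry)

theorem fE_mul (e : Mat G q) (he : IsIdem e) (X Y : Matrix K.κ K.κ ℂ) :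
    fE D K q e he.1 X * fE D K q e he.1 Y = fE D K q e he.1 (X * Y) := by
  sorry

theorem fE_H (e : Mat G q) (he : InL1 e) (X : Matrix K.κ K.κ ℂ) (c p p' : G) :
    (fE D K q e he X).e (c * p) (c * p') = fσ D K q c ((fE D K q e he X).e p p') := by
  sorry

theorem fE_x (e : Mat G q) (he : InL1 e) (X : Matrix K.κ K.κ ℂ) (hX : K.Λ * X = X * K.Λ)
    (p p' : G) :
    (fE D K q e he X).e (x * p) (x * p') = fθ D K q ((fE D K q e he X).e p p') := by
  sorry

/-- Even and odd projections. -/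
noncomputable def P0 {m : ℕ} [NeZero m] {C : Type} [Fintype C] (K : Cliff m C) :
    Matrix K.κ K.κ ℂ := (1 / 2 : ℂ) • (1 + K.Γ)

noncomputable def P1 {m : ℕ} [NeZero m] {C : Type} [Fintype C] (K : Cliff m C) :
    Matrix K.κ K.κ ℂ := (1 / 2 : ℂ) • (1 - K.Γ)

/-- Evaluation. -/
theorem fE_trace (e : Mat G q) (he : InL1 e) (ρ : G → G)
    (hρ : ∀ y, IsConj x y → (ρ y)⁻¹ * x * ρ y = y) :
    (∑' y : {y // IsConj x y}, fT D K q ((fE D K q e he (P0 K)).e (ρ y) (x * ρ y))) -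
      (∑' y : {y // IsConj x y}, fT D K q ((fE D K q e he (P1 K)).e (ρ y) (x * ρ y))) =
      tau (ConjClasses.mk x) e * (K.Γ * K.Λᴴ).trace := by
  sorry

end

/-! ### G4, G5: the inverse -/

/-- The inverse kernels: for given `e` there are `S`, `ε` such that for all fields (and a suitable
polynomial) the inverse exists on the region, with a uniform majorant. -/
theorem exists_V {G : Type u} [Group G] {q : ℕ} [NeZero q] (e : Mat G q) (he : IsIdem e) :
    ∃ (S : Finset G) (ε : ℝ), 0 < ε ∧ ∀ (x : G) (D : FData G x S ε) (K : Cliff D.m D.C),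
      ∃ (P : Polynomial ℝ) (κ : ℝ) (V : (G →₀ ℝ) → Ker G (RR D K q)) (b : G → ℝ),
        0 < κ ∧ κ < 1 ∧ (∀ g, 0 ≤ b g) ∧ Summable b ∧
        (∀ s, ¬ Reg κ s → V s = 0) ∧
        (∀ s, Reg κ s → V s * (fE D K q e he.1 (P1 K) * diag (fW D K q P s) *
          fE D K q e he.1 (P0 K)) = fE D K q e he.1 (P0 K)) ∧
        (∀ s, Reg κ s → (fE D K q e he.1 (P1 K) * diag (fW D K q P s) *
          fE D K q e he.1 (P0 K)) * V s = fE D K q e he.1 (P1 K)) ∧
        (∀ s, fE D K q e he.1 (P0 K) * V s = V s) ∧ (∀ s, V s * fE D K q e he.1 (P1 K) = V s) ∧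
        Maj (fE D K q e he.1 (P0 K)) b ∧ Maj (fE D K q e he.1 (P1 K)) b ∧
        (∀ s, Reg κ s → Maj (fE D K q e he.1 (P1 K) * diag (fW D K q P s) *
          fE D K q e he.1 (P0 K)) b) ∧ ∀ s, Maj (V s) b := by
  sorry

/-- Uniqueness of relative inverses. -/
theorem inv_unique {A : Type*} [Ring A] {e0 e1 u v v' : A} (h1 : v * u = e0) (h2 : v * e1 = v)
    (h3 : u * v' = e1) (h4 : e0 * v' = v') : v = v' := by
  rw [← h2, ← h3, ← mul_assoc, h1, h4]

section

variable {G : Type u} [Group G] {x : G} {S : Finset G} {ε : ℝ} (D : FData G x S ε)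
  (K : Cliff D.m D.C) (q : ℕ) [NeZero q]

/-- Block G5. -/
theorem V_inv (e : Mat G q) (he : IsIdem e) (P : Polynomial ℝ) (κ : ℝ)
    (V : (G →₀ ℝ) → Ker G (RR D K q)) (h0 : ∀ s, ¬ Reg κ s → V s = 0)
    (h1 : ∀ s, Reg κ s → V s * (fE D K q e he.1 (P1 K) * diag (fW D K q P s) *
      fE D K q e he.1 (P0 K)) = fE D K q e he.1 (P0 K))
    (h2 : ∀ s, Reg κ s → (fE D K q e he.1 (P1 K) * diag (fW D K q P s) *
      fE D K q e he.1 (P0 K)) * V s = fE D K q e he.1 (P1 K))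
    (h3 : ∀ s, fE D K q e he.1 (P0 K) * V s = V s)
    (h4 : ∀ s, V s * fE D K q e he.1 (P1 K) = V s) :
    (∀ s r τ, (∀ g, 0 ≤ s g) → 0 ≤ τ →
      V (s + Finsupp.single (x * r) τ) = V (s + Finsupp.single r τ)) ∧
    (∀ c, c * x = x * c → ∀ s p p',
      (V (s.mapDomain (c * ·))).e (c * p) (c * p') = fσ D K q c ((V s).e p p')) ∧
    ∀ s p p', (V s).e (x * p) (x * p') = fθ D K q ((V s).e p p') := by
  sorry

end

end Vale.Agent.P184.H57
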